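import Vale.Agent.P065.H537.Restrict
import Vale.Agent.P065.UB.H139.Aff
import Vale.Agent.P065.UB.H822.Area

/-!
# P065, upper bound, [DIM], block [NORMDROP]: literal Props (helper882; plan: helper549's note 19477)

`S` is a set of active points such that no dense subset of `S` has much smaller area than `S` (NC).
An affine map (verticals to verticals) puts `S` in `[0, 1] × [-1, 1]`; after dropping the steep
windows and the long windows there remains a `JView`.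

* [AFFJ] helper855, [NORM] helper771, [DROP] and the assembly helper882.
-/

set_option autoImplicit false

namespace Vale.Agent.P065.UB.NormDrop

open Finset Vale.Agent.P065.UB Vale.Agent.P065.H183 Vale.Agent.P065.UB.H139

/-- twice the signed area of a triangle -/
def dt (p q r : Pt) : ℝ := H822.det3 p.1 p.2 q.1 q.2 r.1 r.2

/-- **(NC)** every subset of `S` with at least `N / M` points has a triangle of area `≥ κ al` -/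
def NC (M κ al : ℝ) (N : ℕ) (S : Finset Pt) : Prop :=
  ∀ T ⊆ S, (N : ℝ) ≤ M * #T → ∃ p ∈ T, ∃ q ∈ T, ∃ r ∈ T, κ * al ≤ |dt p q r|

/-- **[AFFJ]** the affine image of a `JView` (`af`, `am`: helper139) -/
def StAffJ : Prop :=
  ∀ (K lam : ℝ) (Q : Finset Pt) (W : Finset ℕ) (I : ℕ → Set ℝ) (R : ℕ → Finset Pt),
    JView K lam Q W I R → ∀ α β γ δ ε : ℝ, 0 < α → 0 < γ →
    open Classical in
    JView K lam (Q.image (af α β γ δ ε)) W (fun w => am α γ δ '' I w)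
      (fun w => (R w).image (af α β γ δ ε))

/-- **[NORM]** the normalising map: leftmost point to `(0, 0)`, rightmost point to `(1, 0)`,
maximal height over the line joining them `1` -/
def StNorm : Prop :=
  ∀ S : Finset Pt, (∃ p ∈ S, ∃ q ∈ S, ∃ r ∈ S, dt p q r ≠ 0) →
    ∃ α β γ δ ε : ℝ, 0 < α ∧ 0 < γ ∧
      (∀ p ∈ S, 0 ≤ (af α β γ δ ε p).1 ∧ (af α β γ δ ε p).1 ≤ 1 ∧ |(af α β γ δ ε p).2| ≤ 1) ∧
      (∃ p ∈ S, ∃ q ∈ S, ∃ r ∈ S, 1 ≤ α * γ * |dt p q r|) ∧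
      ∀ p q r : Pt, |dt (af α β γ δ ε p) (af α β γ δ ε q) (af α β γ δ ε r)| = α * γ * |dt p q r|

/-- **[DROP]** dropping the steep and the long windows -/
def StDrop : Prop :=
  ∃ C : ℕ, ∀ (K lam κ M : ℝ) (Q : Finset Pt) (W : Finset ℕ) (I : ℕ → Set ℝ)
    (R : ℕ → Finset Pt) (S : Finset Pt), JView K lam Q W I R → lam ^ 2 ≤ #Q → S ⊆ Q →
    (∀ w ∈ W, R w ⊆ S) → (∀ p ∈ S, 0 ≤ p.1 ∧ p.1 ≤ 1 ∧ |p.2| ≤ 1) → NC M κ 1 #Q S →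
    0 < κ → κ ≤ 1 → K ^ C ≤ κ ^ 2 * lam → K ^ C ≤ M →
    ∃ W' ⊆ W, JView (K ^ C) lam Q W' I R ∧ (∀ w ∈ W', ∀ x ∈ I w, |x| ≤ 20 / κ) ∧
      ∀ w ∈ W', ∀ x ∈ I w, ∀ y ∈ I w, lam ^ 3 * (x - y) ^ 2 ≤ 1

/-- **[NORMDROP]** -/
def StNormDrop : Prop :=
  ∃ C : ℕ, ∀ (K lam κ M al : ℝ) (Q : Finset Pt) (W : Finset ℕ) (I : ℕ → Set ℝ)
    (R : ℕ → Finset Pt) (S : Finset Pt), JView K lam Q W I R → lam ^ 2 ≤ #Q → S ⊆ Q →
    0 < al → (∀ p ∈ S, ∀ q ∈ S, ∀ r ∈ S, |dt p q r| ≤ al) → NC M κ al #Q S →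
    0 < κ → κ ≤ 1 → K ^ C ≤ κ ^ 2 * lam → K ^ C ≤ M →
    open Classical in
    lam * #Q ≤ K * ∑ w ∈ W, (#(R w ∩ S) : ℝ) →
    ∃ α β γ δ ε : ℝ, 0 < α ∧ 0 < γ ∧ ∃ W' ⊆ W,
      JView (K ^ C) lam (Q.image (af α β γ δ ε)) W' (fun w => am α γ δ '' I w)
        (fun w => (R w ∩ S).image (af α β γ δ ε)) ∧
      (∀ p ∈ S.image (af α β γ δ ε), 0 ≤ p.1 ∧ p.1 ≤ 1 ∧ |p.2| ≤ 1) ∧
      NC M κ 1 #Q (S.image (af α β γ δ ε)) ∧
      (∀ w ∈ W', ∀ x ∈ am α γ δ '' I w, |x| ≤ 20 / κ) ∧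
      ∀ w ∈ W', ∀ x ∈ am α γ δ '' I w, ∀ y ∈ am α γ δ '' I w, lam ^ 3 * (x - y) ^ 2 ≤ 1

/-- light strips: a subset of `S` in a strip of width `κ / 4` (vertical or not) is not dense -/
def StLight : Prop :=
  ∀ (M κ : ℝ) (N : ℕ) (S : Finset Pt), NC M κ 1 N S → 0 < κ →
    (∀ p ∈ S, 0 ≤ p.1 ∧ p.1 ≤ 1 ∧ |p.2| ≤ 1) → ∀ T ⊆ S,
    ((∃ x : ℝ, ∀ p ∈ T, |p.1 - x| ≤ κ / 10) ∨ (∃ s t : ℝ, ∀ p ∈ T, |p.2 - s * p.1 - t| ≤ κ / 10)) →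
    M * #T < N

end Vale.Agent.P065.UB.NormDrop
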