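import Vale.Agent.P065.UB.NormDrop.Asm

/-!
# P065, upper bound, [NORMDROP]: the normalising map (helper882)
-/

set_option autoImplicit false

namespace Vale.Agent.P065.UB.NormDrop

open Finset Vale.Agent.P065.UB Vale.Agent.P065.H183 Vale.Agent.P065.UB.H139

theorem dt_af (α β γ δ ε : ℝ) (p q r : Pt) :
    dt (af α β γ δ ε p) (af α β γ δ ε q) (af α β γ δ ε r) = α * γ * dt p q r := by
  unfold dt H822.det3
  simp only [af_fst, af_snd]
  ring

/-- **[NORM]** -/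
theorem stNorm : StNorm := by
  intro S ⟨a, ha, b, hb, c, hc, habc⟩
  have hne : S.Nonempty := ⟨a, ha⟩
  obtain ⟨p, hp, hpmin⟩ := exists_min_image S (fun z => z.1) hne
  obtain ⟨q, hq, hqmax⟩ := exists_max_image S (fun z => z.1) hne
  have hpq : p.1 < q.1 := by
    by_contra hcon
    push Not at hcon
    have h1 : ∀ z ∈ S, z.1 = p.1 := fun z hz =>
      le_antisymm ((hqmax z hz).trans hcon) (hpmin z hz)
    apply habc
    unfold dt H822.det3
    rw [h1 a ha, h1 b hb, h1 c hc]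
    ring
  have hU : 0 < q.1 - p.1 := by linarith
  obtain ⟨s, hs⟩ : ∃ s : ℝ, s = (q.2 - p.2) / (q.1 - p.1) := ⟨_, rfl⟩
  have hsU : s * (q.1 - p.1) = q.2 - p.2 := by
    rw [hs]; field_simp
  obtain ⟨r, hr, hrmax⟩ := exists_max_image S (fun z => |z.2 - p.2 - s * (z.1 - p.1)|) hne
  obtain ⟨V, hV⟩ : ∃ V : ℝ, V = |r.2 - p.2 - s * (r.1 - p.1)| := ⟨_, rfl⟩
  have hV0 : 0 < V := by
    rcases (abs_nonneg (r.2 - p.2 - s * (r.1 - p.1))).lt_or_eq with h | h
    · rw [hV]; exact h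
    exfalso
    have h1 : ∀ z ∈ S, z.2 = p.2 + s * (z.1 - p.1) := by
      intro z hz
      have h2 := hrmax z hz
      rw [← h] at h2
      have h3 := abs_eq_zero.1 (le_antisymm h2 (abs_nonneg _))
      linarith
    apply habc
    unfold dt H822.det3
    rw [h1 a ha, h1 b hb, h1 c hc]
    ring
  have hle : ∀ z ∈ S, |z.2 - p.2 - s * (z.1 - p.1)| ≤ V := by
    intro z hz
    rw [hV]; exact hrmax z hz
  have hU1 := hU.ne'
  have hV1 := hV0.ne'
  have f1 : ∀ z : Pt, (af (1 / (q.1 - p.1)) (-(p.1 / (q.1 - p.1))) (1 / V) (-(s / V))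
      ((s * p.1 - p.2) / V) z).1 = (z.1 - p.1) / (q.1 - p.1) := by
    intro z
    rw [af_fst]
    ring
  have f2 : ∀ z : Pt, (af (1 / (q.1 - p.1)) (-(p.1 / (q.1 - p.1))) (1 / V) (-(s / V))
      ((s * p.1 - p.2) / V) z).2 = (z.2 - p.2 - s * (z.1 - p.1)) / V := by
    intro z
    rw [af_snd]
    ring
  have hdt : ∀ x y z : Pt, |dt (af (1 / (q.1 - p.1)) (-(p.1 / (q.1 - p.1))) (1 / V) (-(s / V))
      ((s * p.1 - p.2) / V) x) (af (1 / (q.1 - p.1)) (-(p.1 / (q.1 - p.1))) (1 / V) (-(s / V))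
      ((s * p.1 - p.2) / V) y) (af (1 / (q.1 - p.1)) (-(p.1 / (q.1 - p.1))) (1 / V) (-(s / V))
      ((s * p.1 - p.2) / V) z)| = 1 / (q.1 - p.1) * (1 / V) * |dt x y z| := by
    intro x y z
    rw [dt_af, abs_mul, abs_of_pos (by positivity)]
  refine ⟨1 / (q.1 - p.1), -(p.1 / (q.1 - p.1)), 1 / V, -(s / V), (s * p.1 - p.2) / V,
    by positivity, by positivity, ?_, ⟨p, hp, q, hq, r, hr, ?_⟩, hdt⟩
  · intro z hz
    rw [f1, f2]
    refine ⟨div_nonneg (by linarith [hpmin z hz]) hU.le, ?_, ?_⟩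
    · rw [div_le_one hU]
      linarith [hqmax z hz]
    · rw [abs_div, abs_of_pos hV0, div_le_one hV0]
      exact hle z hz
  · have e1 : dt p q r = (q.1 - p.1) * (r.2 - p.2 - s * (r.1 - p.1)) := by
      unfold dt H822.det3
      rw [← hsU]
      ring
    rw [e1, abs_mul, abs_of_pos hU, ← hV]
    have e2 : 1 / (q.1 - p.1) * (1 / V) * ((q.1 - p.1) * V) = 1 := by
      field_simp
    rw [e2]

/-- **[NORMDROP]** -/
theorem stNormDrop : StNormDrop := stNormDrop_of stNorm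

end Vale.Agent.P065.UB.NormDrop
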