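import Vale.Agent.P065.UB.H855.NDrop

/-!
# P065, upper bound, [NORMDROP]: assembly (helper882)
-/

set_option autoImplicit false

namespace Vale.Agent.P065.UB.NormDrop

open Finset Vale.Agent.P065.UB Vale.Agent.P065.H183 Vale.Agent.P065.UB.H139 Vale.Agent.P065.H537

open Classical in
/-- (NC) of the affine image -/
theorem nc_image {M κ al : ℝ} {N : ℕ} {S : Finset Pt} (hNC : NC M κ al N S) (hκ : 0 < κ)
    (F : Pt → Pt) (hF : Function.Injective F) {D : ℝ} (hD : 1 ≤ D * al) (hD0 : 0 < D)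
    (hdt : ∀ p q r : Pt, |dt (F p) (F q) (F r)| = D * |dt p q r|) : NC M κ 1 N (S.image F) := by
  intro T hT hN
  have e1 : (S.filter fun p => F p ∈ T).image F = T := by
    ext x
    rw [mem_image]
    constructor
    · rintro ⟨p, hp, rfl⟩
      exact (mem_filter.1 hp).2
    · intro hx
      obtain ⟨p, hp, hpx⟩ := mem_image.1 (hT hx)
      exact ⟨p, mem_filter.2 ⟨hp, hpx ▸ hx⟩, hpx⟩
  have e2 : #T = #(S.filter fun p => F p ∈ T) := by
    conv_lhs => rw [← e1]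
    exact card_image_of_injective _ hF
  rw [e2] at hN
  obtain ⟨p, hp, q, hq, r, hr, h⟩ := hNC _ (filter_subset _ _) hN
  refine ⟨F p, (mem_filter.1 hp).2, F q, (mem_filter.1 hq).2, F r, (mem_filter.1 hr).2, ?_⟩
  rw [hdt]
  calc κ * 1 ≤ κ * (D * al) := mul_le_mul_of_nonneg_left hD hκ.le
    _ = D * (κ * al) := by ring
    _ ≤ D * |dt p q r| := mul_le_mul_of_nonneg_left h hD0.le

open Classical in
/-- **[NORMDROP]**, assembly -/
theorem stNormDrop_of (hN : StNorm) : StNormDrop := by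
  obtain ⟨C0, hD⟩ := H855.stDrop
  refine ⟨3 * C0 + 10, ?_⟩
  intro K lam κ M al Q W I R S h hQ hS hal hbd hNC hκ hκ1 hC hM hflag
  have hK := h.two
  have hlam := h.one
  have hK1 : 1 ≤ K := by linarith
  have hQ0 : (0 : ℝ) < #Q := by nlinarith
  have hQne : Q.Nonempty := by
    rw [← card_pos]
    exact_mod_cast hQ0
  -- restriction
  have hflag' : lam * #Q ≤ K * ∑ w ∈ W, (#(R w ∩ S) : ℝ) := by
    convert hflag
  have h1 := restrict h hQne hK1 (S := S) hflag'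
  -- the set `S` is dense
  have hdens : (#Q : ℝ) ≤ M * #S := by
    have e1 : ∑ w ∈ W, (#(R w ∩ S) : ℝ) ≤ #S * (K * lam) := by
      have e2 : ∑ w ∈ W, (#(R w ∩ S) : ℝ) = ∑ x ∈ S, (#{w ∈ W | x ∈ R w} : ℝ) := by
        exact_mod_cast sum_flags (W := W) (R := R) S
      rw [e2, ← nsmul_eq_mul, ← sum_const]
      exact sum_le_sum fun x hx => h.touch x (hS hx)
    have e3 : lam * #Q ≤ lam * (K ^ 2 * #S) := by
      calc lam * #Q ≤ K * ∑ w ∈ W, (#(R w ∩ S) : ℝ) := hflag'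
        _ ≤ K * (#S * (K * lam)) := mul_le_mul_of_nonneg_left e1 (by linarith)
        _ = lam * (K ^ 2 * #S) := by ring
    have e4 : (#Q : ℝ) ≤ K ^ 2 * #S := le_of_mul_le_mul_left e3 (by linarith)
    have e5 : K ^ 2 ≤ M := (pow_le_pow_right₀ hK1 (by omega : 2 ≤ 3 * C0 + 10)).trans hM
    exact e4.trans (mul_le_mul_of_nonneg_right e5 (by positivity))
  obtain ⟨p, hp, q, hq, r, hr, hpqr⟩ := hNC S subset_rfl hdens
  have hne : dt p q r ≠ 0 := by
    intro h0
    rw [h0, abs_zero] at hpqr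
    have : 0 < κ * al := mul_pos hκ hal
    linarith
  obtain ⟨α, β, γ, δ, ε, hα, hγ, hbox, ⟨p', hp', q', hq', r', hr', hbig⟩, hdt⟩ :=
    hN S ⟨p, hp, q, hq, r, hr, hne⟩
  have hinj : Function.Injective (af α β γ δ ε) := af_inj hα hγ
  have hD0 : 0 < α * γ := mul_pos hα hγ
  have hD1 : 1 ≤ α * γ * al :=
    hbig.trans (mul_le_mul_of_nonneg_left (hbd p' hp' q' hq' r' hr') hD0.le)
  have hNC' : NC M κ 1 #Q (S.image (af α β γ δ ε)) :=
    nc_image hNC hκ _ hinj hD1 hD0 hdt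
  have hcardQ : #(Q.image (af α β γ δ ε)) = #Q := card_image_of_injective _ hinj
  have hbox' : ∀ p ∈ S.image (af α β γ δ ε), 0 ≤ p.1 ∧ p.1 ≤ 1 ∧ |p.2| ≤ 1 := by
    intro x hx
    obtain ⟨y, hy, rfl⟩ := mem_image.1 hx
    exact hbox y hy
  have h2 := H855.stAffJ _ _ _ _ _ _ h1 α β γ δ ε hα hγ
  have hKK : (2 * K * K) ^ C0 ≤ K ^ (3 * C0 + 10) := by
    calc (2 * K * K) ^ C0 ≤ (K ^ 3) ^ C0 := by
          apply pow_le_pow_left₀ (by positivity)
          nlinarith [mul_pos (show (0 : ℝ) < K by linarith) (show (0 : ℝ) < K by linarith)]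
      _ = K ^ (3 * C0) := by rw [← pow_mul]
      _ ≤ K ^ (3 * C0 + 10) := pow_le_pow_right₀ hK1 (by omega)
  have h3 := hD (2 * K * K) lam κ M (Q.image (af α β γ δ ε)) (Wd (2 * K * K) lam Q W R S)
    (fun w => am α γ δ '' I w) (fun w => (R w ∩ S).image (af α β γ δ ε))
    (S.image (af α β γ δ ε)) (by convert h2) (by rw [hcardQ]; exact hQ) (image_subset_image hS)
    (fun w _ => image_subset_image inter_subset_right) hbox' (by rw [hcardQ]; exact hNC') hκ hκ1
    (hKK.trans hC) (hKK.trans hM)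
  obtain ⟨W', hW', h4, h5, h6⟩ := h3
  refine ⟨α, β, γ, δ, ε, hα, hγ, W', ?_, ?_, hbox', hNC', h5, h6⟩
  · intro w hw
    exact (mem_Wd.1 (hW' hw)).1
  · exact H855.jview_sub h4 subset_rfl hKK (h4.cardW'.trans
      (mul_le_mul_of_nonneg_right hKK (by positivity)))

end Vale.Agent.P065.UB.NormDrop
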